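import Crest.Agent.X212.Sw87.MoL
import Crest.Agent.X212.Cyc79.Xf

/-!
# Row 212, GEO engine (helper33): the models are families (E-FAM, E-OK)
-/

set_option autoImplicit false
set_option linter.unusedSectionVars false
noncomputable section
open scoped Manifold ContDiff Topology InnerProductSpace
open MeasureTheory Set Function Filter

namespace Crest.Agent.X212.Fam33
open An Cyf70 Sw Flo2 Geo28 Met55 Sw87 Sw87.Mo Prm93 Sob92

variable {κ : Type} [Fintype κ] [DecidableEq κ] {μ : Type} [Fintype μ] [DecidableEq μ]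
  {X : M4} {τ : MT κ X} {k : ℕ} {β : MB τ k} {t : Tk k} {i : τ.N} {x : X.M}
  {W : Type} [NormedAddCommGroup W] [NormedSpace ℝ W]

theorem sm_ext (b : NB κ X) {f : b.e.A.Y.M → W} (hf : Sm b.e.A.Y.I f) : Sm X.I (b.ext f) := fun x => by
  by_cases h : x ∈ b.U (1 / 2)
  · have m := b.U_sub (by norm_num) h
    have s := b.sm'.contMDiffAt (b.k.open_target.mem_nhds m)
    refine (((cu_sm b.s).contMDiff.contMDiffAt.comp x s.snd).smul ((hf _).comp x s.fst)).congr_of_eventuallyEq
      ((b.k.open_target.eventually_mem m).mono fun y hy => ?_)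
    exact congrArg (cu b.s · • _) (NB.symm_snd hy).symm
  · refine (contMDiffAt_const (c := 0)).congr_of_eventuallyEq ?_
    have c := b.n.cont.continuousAt (x := x)
    have : ∀ᶠ y in 𝓝 x, y ∉ b.U (1 / 4) := by
      simp only [NB.U, mem_preimage] at h ⊢
      generalize b.n.tm = g at *
      generalize b.s = o at *
      rcases o with _ | _ | _
      · simp only [jm_none, not_and_or, not_lt] at h ⊢
        exact h.elim (fun h => (c.eventually (gt_mem_nhds (by linarith))).mono fun y hy => .inl hy.le)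
          fun h => (c.eventually (lt_mem_nhds (by linarith))).mono fun y hy => .inr hy.le
      · simp only [jm_in, not_lt] at h ⊢
        exact (c.eventually (lt_mem_nhds (by linarith))).mono fun y hy => hy.le
      · simp only [jm_out, not_lt] at h ⊢
        exact (c.eventually (gt_mem_nhds (by linarith))).mono fun y hy => hy.le
    exact this.mono fun y hy => NB.ext_zero f hy

theorem v_end (h : (τ.nb i).s ≠ none) : β.v t i = 2 := if_neg h

theorem v_sm (i : τ.N) : ContDiff ℝ ∞ fun t => β.v t i := by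
  unfold MB.v MT.sw
  split_ifs
  · refine ContDiff.sum fun c _ => ?_
    split_ifs
    exacts [contDiff_apply ℝ ℝ c, contDiff_const]
  · exact contDiff_const

theorem v_wl {c : Fin k} (h : β.wl c = some i) : β.v t i = t c := by
  rw [MB.v, MT.sw, if_pos (β.fin c i h), Fintype.sum_eq_single c fun c' n => if_neg fun e =>
    n (β.inj _ _ i e h), if_pos h]

/-- the core -/
def cor (τ : MT κ X) : Set X.M := {x | ∀ i, ((τ.nb i).s = some true → (τ.nb i).n.tm x ≤ 1) ∧
  ((τ.nb i).s = some false → -1 ≤ (τ.nb i).n.tm x)}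

theorem out (h : x ∉ cor τ) : ∃ i, (τ.nb i).s ≠ none ∧ x ∈ (τ.nb i).U 0 := by
  obtain ⟨i, h⟩ := not_forall.1 h
  simp only [not_and_or, Classical.not_imp, not_le] at h
  refine ⟨i, h.elim (by simp [·.1]) (by simp [·.1]), ?_⟩
  rw [NB.U, mem_preimage]
  generalize (τ.nb i).n.tm x = r at h
  obtain ⟨e, h⟩ | ⟨e, h⟩ := h <;> rw [e]
  exacts [jm_out.2 (by linarith), jm_in.2 (by linarith)]

theorem e_end (h : (τ.nb i).s ≠ none) (hx : x ∈ (τ.nb i).U 0) (a : Option κ) :
    β.e t a x = β.e 0 a x := by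
  have := fun t => β.lit t i (one_lt_two.trans_eq (v_end h).symm) a _
    (NB.symm_mem (by norm_num) ((τ.nb i).U_mono (by norm_num) hx))
  simp only [show ∀ t, τ.sw β.wl t i = 2 from fun _ => v_end h] at this
  rw [← (τ.nb i).k.right_inv ((τ.nb i).U_sub zero_le_one hx)]
  exact (this t).symm.trans (this 0)

theorem sb_of {F : Pre X.I X.M (Option κ)} {f : Tk k → X.M → W} (js : JS X.I univ f) (h0 : F.Cb (f 0))
    (e : ∀ t i, (τ.nb i).s ≠ none → ∀ x ∈ (τ.nb i).U 0, f t x = f 0 x) : SB F univ f := by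
  have e' : ∀ t, ∀ x ∉ cor τ, f t x = f 0 x := fun t x h => let ⟨i, a, b⟩ := out h; e t i a x b
  refine Prm93.Fam.sb (τ.cpt 1) isOpen_univ ⟨js, fun t _ => ?_, fun t _ s _ x h => (e' t x h).trans (e' s x h).symm⟩
  convert Cb_add h0 (Cb_of_hcs ((js.sm (t := t) trivial).sub (js.sm (t := 0) trivial))
    (HasCompactSupport.intro (τ.cpt 1) fun x h => sub_eq_zero.2 (e' t x h))) using 1
  exact funext fun x => by simp

theorem js_ext {f : ∀ i, (τ.nb i).e.A.Y.M → W} (hf : ∀ i, Sm (τ.nb i).e.A.Y.I (f i)) :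
    JS X.I univ fun t x => ∑ i, wt (β.v t i) • (τ.nb i).ext (f i) x := fun _ _ x =>
  contMDiffAt_finsetSum fun i _ => (JAt.of_par ((Real.smoothTransition.contDiff.comp
    ((contDiff_const.mul (v_sm i)).sub contDiff_const)).contDiffAt)).smul
      (JAt.of_fixed (sm_ext _ (hf i) x))

theorem ext_end (f : ∀ i, (τ.nb i).e.A.Y.M → W) (h : (τ.nb i).s ≠ none) (hx : x ∈ (τ.nb i).U 0) :
    ∑ j, wt (β.v t j) • (τ.nb j).ext (f j) x = ∑ j, wt (β.v 0 j) • (τ.nb j).ext (f j) x :=
  Finset.sum_congr rfl fun j _ => by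
    rcases eq_or_ne j i with rfl | n
    · rw [v_end h, v_end h]
    · rw [NB.ext_zero _ fun m => disjoint_left.1 (τ.dj n) ((τ.nb j).U_sub (by norm_num) m)
        ((τ.nb i).U_sub zero_le_one hx), smul_zero, smul_zero]

theorem cmp_mix (f : X.Fm) (s : Option κ × Option κ) : Mo.cmp (β.e t) f x s = ∑ r : Fin 2 → Option κ,
    trS (β.F 0) (β.F t) x s.1 (r 0) * trS (β.F 0) (β.F t) x s.2 (r 1) * Mo.cmp (β.e 0) f x (r 0, r 1) := by
  have e : ∀ a, Int54.fv (β.e t) x a = ∑ b, trS (β.F 0) (β.F t) x a b • Int54.fv (β.e 0) x b :=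
    fun a => trS_mix (β.F 0) (β.F t) a x
  simp only [Mo.cmp, Int54.cf, e]
  refine ((R208.F.evA _ 2 (f x)).toMultilinearMap.map_sum _).trans (Finset.sum_congr rfl fun r _ => ?_)
  rw [MultilinearMap.map_smul_univ, Fin.prod_univ_two]
  exact congrArg₂ _ rfl (congrArg _ (funext fun j => by fin_cases j <;> rfl))

variable (c : MC μ β)

theorem nk_ng {v : τ.N → ℝ} {n : ℕ} {ct : Fin n → Cut X.M κ (μ ⊕ μ)} :
    ∀ K ∈ (c.pz t v ct).nk i, 3 / 2 < v i ∧ K.ng = (τ.nb i).ng (v i) := fun K h => by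
  simp only [MC.pz] at h
  split_ifs at h with j
  exacts [⟨j.1, Option.some_injective _ h ▸ j.2.choose_spec⟩, nomatch h]

variable (hP : PzStmt κ μ)
include c hP

theorem fin_of (h : (c.pz 0 (β.v 0) (n := 0) Fin.elim0).nk i = none) : (τ.nb i).s = none := by
  by_contra j
  obtain ⟨K, e, -⟩ := hP.nk c 0 (n := 0) Fin.elim0 i (by rw [v_end j]; norm_num)
  simp [h] at e

theorem inf_iff (s : Bool) : (c.pz 0 (β.v 0) (n := 0) Fin.elim0).Inf i s ↔ (τ.nb i).s = some s := by
  refine ⟨fun ⟨K, e, j⟩ => ?_, fun h => ?_⟩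
  · have p : K.p = _ := congrArg (·.1) (nk_ng c K e).2
    have q : K.q = _ := congrArg (·.2.1) (nk_ng c K e).2
    simp only [NB.ng] at p q
    generalize (τ.nb i).s = o at p q
    rcases o with _ | _ | _ <;> cases s <;> simp_all [Nk.Inf, pa, qa]
  · obtain ⟨K, e, j⟩ := hP.nk c 0 (n := 0) Fin.elim0 i (by rw [v_end (by simp [h])]; norm_num)
    have p : K.p = pa (τ.nb i).s := congrArg (·.1) j
    have q : K.q = qa _ (τ.nb i).s := congrArg (·.2.1) j
    refine ⟨K, e, ?_⟩
    cases s <;> simp [Nk.Inf, p, q, h, pa, qa]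

theorem str (h : (τ.nb i).s = none) (hv : 3 / 2 < β.v t i) (ens C) : (c.gc ens C).𝓕.Str t i := by
  obtain ⟨K, e, j⟩ := hP.nk c t (c.ct t) i hv
  have l : ∀ v, len v + 1 = st v 3 := fun v => by rw [st_hi v (by norm_num)]; ring
  refine ⟨K, e, 1, len (β.v t i) + 1, (congrArg (·.1) j).trans (by simp [NB.ng, h, pa]),
    (congrArg (·.2.1) j).trans (by simp [NB.ng, h, qa]),
    fun z => st (β.v z.1 i) ((stH (β.v t i)).symm z.2), _,
    (v_sm i).continuous.continuousAt.eventually (lt_mem_nhds hv), ?_, fun s hs => ⟨fun σ => ?_, ?_⟩⟩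
  · have a := (stH_sm (β.v t i)).comp (contDiff_snd (E := Tk k))
    exact (a.add (((len_sm.comp ((v_sm i).comp contDiff_fst)).sub contDiff_const).mul
      (bt_sm.comp a))).contDiffOn
  · have d : HasDerivAt (fun σ => st (β.v s i) ((stH (β.v t i)).symm σ)) _ σ :=
      (st_der _ _).comp σ (stH_der _ σ)
    rw [d.deriv]
    exact mul_pos (sd_pos _ _) (inv_pos.2 (sd_pos _ _))
  · obtain ⟨K', e', j'⟩ := hP.nk c s (c.ct s) i hs
    refine ⟨K', e', (congrArg (·.1) j').trans ?_, (congrArg (·.2.1) j').trans ?_, fun y σ _ => ?_⟩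
    · have := symm_st (β.v t i) 1
      rw [st_lo _ (by norm_num)] at this
      simp [NB.ng, h, pa, this, st_lo _ (show (1 : ℝ) ≤ 3 / 2 by norm_num)]
    · simp only [l, symm_st]
      simp [NB.ng, h, qa, l]
    · rw [show K'.ψ = _ from congrArg (·.2.2.1) j', show K.ψ = _ from congrArg (·.2.2.1) j]
      exact congrArg (fun r => (τ.nb i).k (y, r)) (symm_st _ _)

theorem eP (t : Tk k) : (β.F t).P = β.B.P := (hP.ok c t).1.bg.G.P

theorem tame : ∃ C, (β.F 0).Tame C := (hP.ok c 0).2.bg.tame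

theorem cP (a b) : (β.F 0).Cb ((β.F 0).P a b) := let ⟨_, h⟩ := tame c hP; ⟨_, h.P a b⟩

omit hP c in
theorem jf : JF univ fun t => (β.F t).toPre := fun t _ x a => .of_tangent (β.sm a t x)

theorem sS (a b) : SB (β.F 0).toPre univ fun t x => trS (β.F 0) (β.F t) x a b :=
  sb_of ((JF.fixed _).mix jf a b) (by simpa only [trS_self] using cP c hP a b) fun t i h x hx =>
    (trS_congr _ _ x a b (e_end h hx)).1

theorem sSi (a b) : SB (β.F 0).toPre univ fun t x => trS (β.F t) (β.F 0) x a b :=
  sb_of (jf.mix (JF.fixed _) a b) (by simpa only [trS_self] using cP c hP a b) fun t i h x hx =>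
    (trS_congr _ _ x a b (e_end h hx)).2

theorem sc (a b l) : SB (β.F 0).toPre univ fun t => (β.F t).c a b l :=
  let ⟨_, hC⟩ := tame c hP
  sb_of (jf.c a b l) ⟨_, hC.c a b l⟩ fun t i h x hx => Pj41.FRel.c (ψ := id) ⟨(τ.nb i).U_open 0,
    fun x _ => (Diffeomorph.refl _ _ _).isLocalDiffeomorph x, fun a x hx => by
      rw [mfderiv_id]; exact e_end h hx a⟩ hx a b l

theorem sdv (a) : SB (β.F 0).toPre univ fun t => (β.F t).dv a :=
  (SB.sum fun b => SB.sum fun l => (sc c hP b a l).mul (.fixed (cP c hP l b))).congr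
    fun t _ => funext fun x => by
      rw [eP c hP 0, ← eP c hP t]; exact dv_vol (F := β.F t) (hP.ok c t).1.vol a x

omit hP c in
theorem srd : SB (β.F 0).toPre univ fun t => rd (β.F 0).toPre (β.F t).toPre :=
  sb_of ((JF.fixed _).rd jf) (by
    rw [show rd (β.F 0).toPre (β.F 0).toPre = fun _ => 1 from
      funext fun x => div_self (pre_sp (β.F 0).toPre x).rjb_pos.ne']
    exact Cb_const _) fun t i h x hx => congrArg (rjb _ · / _) (funext (e_end h hx))

theorem sA (a) : SB (β.F 0).toPre univ fun t => (c.P t).bg.A a := by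
  have s := (hP.ok c 0).2
  have A := Gm56.sb_cn (m := c.m.re) (cP c hP) (fun t _ => (eP c hP t).trans (eP c hP 0).symm)
    (fun t _ => trS_mix _ _) (sS c hP) (sc c hP) s.bg.cp s.bg.cρ a
  refine A.add (sb_of (f := fun t x => c.al (β.v t) a x • (c.m.re.J * c.m.re.p x))
    (fun t _ x => (js_ext (f := fun i y => a.elim 0 fun k => tw (c.ty i) k y) (fun i => ?_)
      t trivial x).smul (JAt.of_fixed (Cb.sm (Cb_clm (ContinuousLinearMap.mul ℝ _ c.m.re.J) s.bg.cp) x)))
    ?_ fun t i h x hx => congrArg (· • _) (ext_end _ h hx))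
  · cases a
    exacts [contMDiff_const, (c.std i).tw.1 _]
  · rw [show (fun x => c.al (β.v 0) a x • (c.m.re.J * c.m.re.p x)) = (c.P 0).bg.A a - Gm56.cn (β.F 0) c.m.re a
      from funext fun x => (add_sub_cancel_left _ _).symm]
    exact Cb_sub (s.bg.cA a) (A.cb 0 trivial)

theorem sms : SB (β.F 0).toPre univ fun t x => c.ms (β.v t) x + c.mc t x :=
  sb_of (fun t _ x => (js_ext (fun i => (Cb.sm (c.std i).ok.cyl.cms).comp
    (contMDiff_id.prodMk contMDiff_const)) t trivial x).add (c.smc t trivial x)) (hP.ok c 0).2.bg.cms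
    fun t i h x hx => congrArg₂ (· + ·) (ext_end _ h hx)
      ((c.m0 t i (one_lt_two.trans_eq (v_end h).symm) x hx).trans
        (c.m0 0 i (one_lt_two.trans_eq (v_end h).symm) x hx).symm)

theorem som : SB (β.F 0).toPre univ fun t x => (β.bg0 c.m).p2 x (Mo.cmp (β.e t) (c.fo t) x) := by
  have sf : SB (β.F 0).toPre univ fun t => Mo.cmp (β.e 0) (c.fo t) := Cyc79.sb_supp c.sf (τ.cpt 1)
    fun t x h => by
      obtain ⟨i, a, b⟩ := out h
      ext s
      simp [Mo.cmp, Int54.cf, c.f0 t i (one_lt_two.trans_eq (v_end a).symm) x b]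
  have cd := Cyc79.cb_sd (B := β.B) (eP c hP 0 ▸ cP c hP) (hP.ok c 0).2.bg.co
  exact Cyc79.sb_fm fun r => (SB.sum fun r' => (SB.fixed (cd r r')).mul
    (SB.sum fun q : Fin 2 → Option κ => ((sS c hP r'.1 (q 0)).mul (sS c hP r'.2 (q 1))).mul
      (sf.clm (PiLp.proj 2 (fun _ => ℝ) (q 0, q 1))))).congr fun t _ => funext fun x => by
        simp [Bg.p2, MB.bg0, cmp_mix (t := t)]

theorem fam (ens C) : (c.gc ens C).𝓕.OK :=
  have s := (hP.ok c 0).2
  have o := fun t => (hP.ok c t).1
  have P := eP c hP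
  have e : ∀ t j, (c.ct t j).Ξ = (τ.bx j).toOpenPartialHomeomorph ∧ (c.ct t j).ρ = rho0 :=
    fun _ _ => ⟨rfl, rfl⟩
  { site := s
    ends := fun i K e => by
      rcases h : (τ.nb i).s with _ | σ
      · have := (nk_ng c K e).1
        simp [MT.sw, h] at this
        linarith
      · obtain ⟨K', e', j⟩ := (inf_iff c hP σ).2 h
        exact ⟨σ, Option.some_injective _ (Eq.symm e' |>.trans e) ▸ j⟩
    w0 := one_pos, opn := isOpen_univ, con := isPreconnected_univ, ne := univ_nonempty
    ok := fun t _ => ⟨o t, fun w => w.elim, fun w => w.elim, fun w => w.elim, fun w => w.elim⟩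
    B := fun _ _ => rfl, m := fun _ _ => rfl, w := fun _ _ => rfl
    mix := fun t _ => trS_mix _ _
    PS := fun t _ x a b => by have := P_trS (β.F 0) (β.F t) x a b; rwa [P] at this
    SP := fun t _ x a b => by have := trS_P (β.F 0) (β.F t) x a b; rwa [P] at this
    PSi := fun t _ x a b => by have := P_trS (β.F t) (β.F 0) x a b; rwa [P] at this
    SiP := fun t _ x a b => by have := trS_P (β.F t) (β.F 0) x a b; rwa [P] at this
    SSi := fun t _ x a b => by have := trS_trS (β.F 0) (β.F t) x a b; rwa [P] at this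
    SiS := fun t _ x a b => by have := trS_trS (β.F t) (β.F 0) x a b; rwa [P] at this
    sS := sS c hP, sSi := sSi c hP, sc := sc c hP, sdv := sdv c hP
    dens := ⟨_, srd, fun t _ => ⟨rd_pos _ _, vol_eq s.vol (o t).vol⟩⟩
    sA := sA c hP, sms := sms c hP, som := som c hP
    sfo := fun w => w.elim, cfo := fun w => w.elim, η := fun w => w.elim
    en := fun t _ i K e => by
      have h : (τ.nb i).s ≠ none := fun h => by
        have := (nk_ng c K e).1
        simp [MT.sw, h] at this
        linarith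
      obtain ⟨K', e', j⟩ := hP.nk c t (c.ct t) i (by rw [v_end h]; norm_num)
      exact ⟨K', e', j.trans ((congrArg _ ((v_end h).trans (v_end h).symm)).trans (nk_ng c K e).2.symm)⟩
    nk := fun t _ i h => (lt_or_ge (β.v t i) 2).imp (fun j =>
      ((v_sm i).continuous.continuousAt.eventually (gt_mem_nhds j)).mono fun s hs K e =>
        ⟨1, (congrArg (·.1) (nk_ng c K e).2).trans (by simp [NB.ng, fin_of c hP h, pa]),
          (congrArg (·.2.1) (nk_ng c K e).2).trans (by
            simp [NB.ng, fin_of c hP h, qa, len_lo hs.le]; norm_num)⟩)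
      fun j => str c hP (fin_of c hP h) (by linarith) ens C
    ct := fun t _ t' _ j => ⟨(e t j).1.trans (e t' j).1.symm, (e t j).2.trans (e t' j).2.symm⟩
    η0 := c.jc }

omit c in
/-- **E-FAM** -/
theorem famStmt : FamStmt κ μ := fun c => fam c hP

omit c in
/-- **E-OK** -/
theorem okStmt : OkStmt κ μ := fun {X τ k β} c ens C k2 nc2 bd k0 ko ki hol lift hens =>
  have off : ∀ t i, β.v t i ≤ 0 → (c.P t).nk i = none := fun t i h =>
    Option.eq_none_iff_forall_not_mem.2 fun K e => by linarith [(nk_ng c K e).1]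
  have ln : ∀ t i, (τ.nb i).s = none → ∀ K ∈ (c.P t).nk i, (c.P t).len i = len (β.v t i) :=
    fun t i h K e => by
      rw [Pz.len, show (c.P t).nk i = some K from e, Option.elim_some,
        show K.p = _ from congrArg (·.1) (nk_ng c K e).2,
        show K.q = _ from congrArg (·.2.1) (nk_ng c K e).2]
      simp [NB.ng, h, pa, qa]
  { fam := fam c hP ens C, Q := rfl, k2 := k2, nc2 := nc2, B := rfl, G := fun _ => rfl
    ret := fun t => congrArg (fun F => (⟨F, 0⟩ : Geo X.I X.M (Option κ) L0))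
      (vol_ext (rFr_vol _ _) (rFr_vol _ _) (β.ret t))
    ng := fun t i => by
      show _ = if _ then _ else _
      split_ifs with h
      · obtain ⟨K, e, j⟩ := hP.nk c t (c.ct t) i h
        exact (congrArg _ e).trans (congrArg some j)
      · exact Option.map_eq_none_iff.2 (Option.eq_none_iff_forall_not_mem.2 fun K e => h (nk_ng c K e).1)
    bd := bd
    inn := fun i => (inf_iff c hP false).trans (τ.inn i)
    out := fun i => (inf_iff c hP true).trans (τ.out i)
    ne3 := fun i h => ⟨τ.ne3 i h, k0 (by simp [show τ.p3 = some i from h])⟩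
    kout := ko, kin := ki
    wl := fun a i h => ⟨Option.eq_none_iff_forall_not_mem.2 fun K e => by
        have := (nk_ng c K e).1
        rw [v_wl h] at this
        norm_num at this,
      fun a' h' => β.inj _ _ i h' h, fun t => ⟨fun j K e => (nomatch (off t i (v_wl h ▸ j)).symm.trans e), fun j => by
        rcases e : (c.P t).nk i with _ | K
        · show (c.P t).len i ≤ 3
          simp [Pz.len, e]; norm_num
        · exact (ln t i (β.fin a i h) K e).trans_le (len_le (v_wl h ▸ j)), fun j => by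
        obtain ⟨K, e, -⟩ := hP.nk c t (c.ct t) i (by rw [v_wl h]; linarith)
        exact (ln t i (β.fin a i h) K e).trans (by rw [v_wl h, len_hi j])⟩⟩
    off := fun i h n t K e => nomatch (off t i (by
      simp [MT.sw, fin_of c hP h, show ∀ a, β.wl a ≠ some i from n])).symm.trans e
    hol := hol, lift := lift
    cyl := fun i h => by
      have := (τ.out i).not.1 (by simp [(τ.inn i).2 h])
      exact not_or.1 this
    ens := hens }

end Crest.Agent.X212.Fam33
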